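/-
Helper35 — S0175 project: final glue.  From a concrete two-shell instance on a model space `M`
(hypotheses `TwoShellHyp` for the cost `tripleCost s`) and a density `ρ` with
`measOfDensity ρ = tsμ ν ΦA ΦB` we get `Goal M s` (the body of S0175 over `M`,
`Crest.Agent.Helper52.OT3.Goal`).
-/
import Crest.Agent.Helper35.TwoShell.Assembled
import Crest.Agent.Helper52.OT3.Transfer

set_option autoImplicit false
open MeasureTheory Set
open scoped ENNReal ContDiff
open Crest.AnalysisR.OT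
open Crest.Agent.Helper32

namespace Crest.Agent.Helper35

/-- Final glue: a two-shell instance whose marginal has the smooth density `ρ` proves the goal
over the model space. -/
theorem goal_of_twoShell {M : Type*} [NormedAddCommGroup M] [InnerProductSpace ℝ M]
    [FiniteDimensional ℝ M] [MeasurableSpace M] [BorelSpace M] (s : ℝ)
    {Y : Type*} [MeasurableSpace Y] [StandardBorelSpace Y] (ν : Measure Y) [IsFiniteMeasure ν]
    (ΦA ΦB : Y × ℝ → M) (g : Y → ℝ) (u : M → ℝ)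
    (h : TwoShellHyp ν ΦA ΦB g (tripleCost s) u)
    (ρ : M → ℝ) (hρ0 : ∀ x, 0 ≤ ρ x) (hρs : ContDiff ℝ ∞ ρ) (hρc : HasCompactSupport ρ)
    (hsq : ContDiff ℝ ∞ (fun x => Real.sqrt (ρ x))) (hint : ∫ x, ρ x = 1)
    (hμ : measOfDensity ρ = tsμ ν ΦA ΦB) :
    Crest.Agent.Helper52.OT3.Goal M s := by
  obtain ⟨π₀, hπ₀, hfin, hmin, hstrict, happrox⟩ := twoShell ν ΦA ΦB g (tripleCost s) u h
  rw [← hμ] at hπ₀ hmin hstrict happrox
  exact ⟨ρ, hρ0, hρs, hρc, hsq, hint, π₀, hπ₀, hfin, hmin, hstrict, happrox⟩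

/-- The same with the frozen statement as conclusion, for a model of dimension `d`. -/
theorem statement_of_twoShell {M : Type*} [NormedAddCommGroup M] [InnerProductSpace ℝ M]
    [FiniteDimensional ℝ M] [MeasurableSpace M] [BorelSpace M] (d : ℕ)
    (hd : Module.finrank ℝ M = d) (s : ℝ)
    {Y : Type*} [MeasurableSpace Y] [StandardBorelSpace Y] (ν : Measure Y) [IsFiniteMeasure ν]
    (ΦA ΦB : Y × ℝ → M) (g : Y → ℝ) (u : M → ℝ)
    (h : TwoShellHyp ν ΦA ΦB g (tripleCost s) u)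
    (ρ : M → ℝ) (hρ0 : ∀ x, 0 ≤ ρ x) (hρs : ContDiff ℝ ∞ ρ) (hρc : HasCompactSupport ρ)
    (hsq : ContDiff ℝ ∞ (fun x => Real.sqrt (ρ x))) (hint : ∫ x, ρ x = 1)
    (hμ : measOfDensity ρ = tsμ ν ΦA ΦB) :
    Crest.Agent.Helper52.OT3.Goal (EuclideanSpace ℝ (Fin d)) s :=
  Crest.Agent.Helper52.OT3.goal_euclidean_of_model M d hd s
    (goal_of_twoShell s ν ΦA ΦB g u h ρ hρ0 hρs hρc hsq hint hμ)

end Crest.Agent.Helper35
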